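import Vale.Agent.P241.H808.Null
import Vale.Agent.P251.G.Cofib

/-!
# P241, route E: nullity calculus for equivariant maps, part 2

* `PM.exists_desc` : descent of two pieces.
* `Polar D S`, `Fact.polar` : a null-homotopy over the unit sphere is a factorisation through the
  open cone.
* `OpenCone`, `OpenCone.null` : nullity on `Z` and on the open cone of `Z ⟶ X` gives nullity on `X`.
* `N_of_htpy` : honest null-homotopies.
* `PB.list`, `Fact.prodList`.
-/

open CategoryTheory MonoidalCategory Filter Topology OnePoint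

open Vale.Agent.P251.St (Space Map)
open Vale.Agent.P251.G Vale.Agent.P251.G.LC
open Vale.Agent.P241.St

namespace Vale.Agent.P241.H808

variable {G : Type} [Group G]

theorem pr_inj {X Y : GSpace G} {x x' : X.carrier} {y y' : Y.carrier}
    (h : (pr x y : (X.prod Y).carrier) = pr x' y') : x = x' ∧ y = y' :=
  ⟨congrArg (p1 (X := X) (Y := Y)) h, congrArg (p2 (X := X) (Y := Y)) h⟩

/-! ### Descent -/

/-- descent of two pieces `a`, `b` -/
theorem PM.exists_desc {X Y D Z : GSpace G} (a : PM X D) (b : PM Y D)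
    (fa : X.carrier → D.carrier) (fb : Y.carrier → D.carrier)
    (ha : ∀ x, a.at' (OnePoint.some x) = OnePoint.some (fa x))
    (hb : ∀ y, b.at' (OnePoint.some y) = OnePoint.some (fb y))
    (hsurj : ∀ p, (∃ x, fa x = p) ∨ ∃ y, fb y = p) (f : PM X Z) (g : PM Y Z)
    (haa : ∀ x x', fa x = fa x' → f.at' (OnePoint.some x) = f.at' (OnePoint.some x'))
    (hbb : ∀ y y', fb y = fb y' → g.at' (OnePoint.some y) = g.at' (OnePoint.some y'))
    (hab : ∀ x y, fa x = fb y → f.at' (OnePoint.some x) = g.at' (OnePoint.some y)) :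
    ∃ k : PM D Z, (∀ x : X.carrier, k.at' (OnePoint.some (fa x)) = f.at' (OnePoint.some x)) ∧
      ∀ y : Y.carrier, k.at' (OnePoint.some (fb y)) = g.at' (OnePoint.some y) := by
  have aux : ∀ {P Q : GSpace G} (c : PM P D) (d : PM Q D) (fc : P.carrier → D.carrier)
      (fd : Q.carrier → D.carrier) (_ : ∀ x, c.at' (OnePoint.some x) = OnePoint.some (fc x))
      (_ : ∀ x, d.at' (OnePoint.some x) = OnePoint.some (fd x)) (u : PM P Z) (v : PM Q Z)
      (_ : ∀ x y, fc x = fd y → u.at' (OnePoint.some x) = v.at' (OnePoint.some y))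
      (x : OnePoint P.carrier) (y : OnePoint Q.carrier), c.at' x = d.at' y →
        u.at' x = v.at' y := by
    intro P Q c d fc fd hc hd u v huv x y h
    induction x using OnePoint.rec with
    | infty =>
      induction y using OnePoint.rec with
      | infty => rw [PM.at_infty, PM.at_infty]
      | coe y =>
        rw [PM.at_infty, hd] at h
        exact absurd h (OnePoint.infty_ne_coe _)
    | coe x =>
      induction y using OnePoint.rec with
      | infty =>
        rw [PM.at_infty, hc] at h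
        exact absurd h (OnePoint.coe_ne_infty _)
      | coe y =>
        rw [hc, hd] at h
        exact huv x y (OnePoint.coe_injective h)
  obtain ⟨k, h1, h2⟩ := LC.exists_desc (X := LC.of X.carrier) (Y := LC.of Y.carrier)
    (D := LC.of D.carrier) (Z := LC.of Z.carrier) a.hom b.hom
    (by
      intro p
      induction p using OnePoint.rec with
      | infty => exact Or.inl ⟨∞, app_infty _⟩
      | coe p =>
        rcases hsurj p with ⟨x, rfl⟩ | ⟨y, rfl⟩
        · exact Or.inl ⟨OnePoint.some x, ha x⟩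
        · exact Or.inr ⟨OnePoint.some y, hb y⟩) f.hom g.hom
    (fun x x' h => aux a a fa fa ha ha f f haa x x' h)
    (fun y y' h => aux b b fb fb hb hb g g hbb y y' h)
    (fun x y h => aux a b fa fb ha hb f g hab x y h)
  have h1' : ∀ x : OnePoint X.carrier, app k (a.at' x) = f.at' x :=
    fun x => congrArg (fun m : LC.of X.carrier ⟶ LC.of Z.carrier => app m x) h1
  have h2' : ∀ y : OnePoint Y.carrier, app k (b.at' y) = g.at' y :=
    fun y => congrArg (fun m : LC.of Y.carrier ⟶ LC.of Z.carrier => app m y) h2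
  refine ⟨⟨k, fun c p => ?_⟩, fun x => ?_, fun y => ?_⟩
  · rcases hsurj p with ⟨x, rfl⟩ | ⟨y, rfl⟩
    · rw [← smul_coe, ← ha, ← a.at_smul, h1', h1', f.at_smul]
    · rw [← smul_coe, ← hb, ← b.at_smul, h2', h2', g.at_smul]
  · rw [← ha]
    exact h1' _
  · rw [← hb]
    exact h2' _

/-- the constant map from a compact space to a fixed point -/
def cst (E : GSpace G) [CompactSpace E.carrier] (β : PB G) : PM E β.B :=
  PM.ofProper (fun _ => β.b) continuous_const (by rw [cocompact_eq_bot]; exact tendsto_bot)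
    (fun g _ => (β.fix g).symm)

@[simp] theorem at_cst (E : GSpace G) [CompactSpace E.carrier] (β : PB G) (e : E.carrier) :
    (cst E β).at' (OnePoint.some e) = OnePoint.some β.b := rfl

/-! ### Polar coordinates -/

/-- polar coordinates on the open cone `D` with unit sphere `S` -/
structure Polar (D : PB G) (S : GSpace G) where
  /-- the point with radius `r` in the direction of `s` -/
  f : S.carrier → NNReal → D.B.carrier
  cont : Continuous (fun z : S.carrier × NNReal => f z.1 z.2)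
  proper : Tendsto (fun z : S.carrier × NNReal => f z.1 z.2) (cocompact _) (cocompact _)
  eqv : ∀ (g : G) (s : S.carrier) (r : NNReal), f (g • s) r = g • f s r
  zero : ∀ s, f s 0 = D.b
  inj : ∀ {s s' r r'}, f s r = f s' r' → r = r' ∧ (r = 0 ∨ s = s')
  surj : ∀ d, d = D.b ∨ ∃ s r, f s r = d

/-- a radius as a point of the half line -/
def rp (r : NNReal) : (hh G).B.carrier := r

theorem rp_zero : rp (G := G) 0 = (hh G).b := rfl

/-- a point of the half line as a radius -/
def rq (x : (hh G).B.carrier) : NNReal := x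

@[simp] theorem rp_rq (x : (hh G).B.carrier) : rp (rq x) = x := rfl

/-- the map `S × [0, ∞) ⟶ D` -/
def Polar.pm {D : PB G} {S : GSpace G} (P : Polar D S) : PM (S.prod (hh G).B) D.B :=
  PM.ofProper (X := S.prod (hh G).B) (fun z => P.f z.1 z.2) P.cont P.proper
    (fun g z => P.eqv g z.1 z.2)

theorem Polar.at_pm {D : PB G} {S : GSpace G} (P : Polar D S) (s : S.carrier) (r : NNReal) :
    P.pm.at' (OnePoint.some (pr s (rp r))) = OnePoint.some (P.f s r) := rfl

section

variable {V : TClass} {E E' : GSpace G} {γ β δ γ' β' : PB G} {X : GSpace G}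

/-- **Polar coordinates**: nullity over the unit sphere is factorisation through the open cone. -/
theorem Fact.polar [CompactSpace E.carrier] {D : PB G} {S : GSpace G} (P : Polar D S)
    (h : N V (E.prod S) β X) : Fact V E D β X := by
  obtain ⟨A, C, v, hv, ψ, hψ⟩ := h
  let a : PM (E.prod (X.prod (tr G A))) (E.prod (D.B.prod (X.prod (tr G A)))) :=
    PM.emb (fun z => pr (p1 z) (pr D.b (p2 z))) (fun w => pr (p1 w) (p2 (p2 w)))
      (continuous_pr continuous_p1 (continuous_pr continuous_const continuous_p2))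
      (by fun_prop) (fun _ => rfl) (fun g z => by
        rw [smul_pr, smul_pr, D.fix g]; rfl)
  let s : PM ((E.prod S).prod ((hh G).B.prod (X.prod (tr G A))))
      (E.prod ((S.prod (hh G).B).prod (X.prod (tr G A)))) :=
    PM.emb (fun z => pr (p1 (p1 z)) (pr (pr (p2 (p1 z)) (p1 (p2 z))) (p2 (p2 z))))
      (fun w => pr (pr (p1 w) (p1 (p1 (p2 w)))) (pr (p2 (p1 (p2 w))) (p2 (p2 w))))
      (by fun_prop) (by fun_prop) (fun _ => rfl) (fun _ _ => rfl)
  let b : PM ((E.prod S).prod ((hh G).B.prod (X.prod (tr G A))))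
      (E.prod (D.B.prod (X.prod (tr G A)))) :=
    s.comp ((PM.id _).prod (P.pm.prod (PM.id _)))
  obtain ⟨k, hk, -⟩ := PM.exists_desc a b (fun z => pr (p1 z) (pr D.b (p2 z)))
    (fun z => pr (p1 (p1 z)) (pr (P.f (p2 (p1 z)) (p1 (p2 z))) (p2 (p2 z))))
    (fun _ => rfl) (fun _ => rfl)
    (by
      intro p
      rcases P.surj (p1 (p2 p)) with h | ⟨s, r, h⟩
      · exact Or.inl ⟨pr (p1 p) (p2 (p2 p)), by rw [p1_pr, p2_pr, ← h]; rfl⟩
      · exact Or.inr ⟨pr (pr (p1 p) s) (pr (rp r) (p2 (p2 p))), by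
          change pr (p1 p) (pr (P.f s r) (p2 (p2 p))) = p
          rw [h]; rfl⟩)
    ((cst E β).prod ((PM.id X).prod (trM G v))) ψ
    (by
      intro x x' h
      have h1 : p1 x = p1 x' := (pr_inj h).1
      have h2 : p2 x = p2 x' := (pr_inj (pr_inj h).2).2
      rw [← pr_p1_p2 x, ← pr_p1_p2 x', h1, h2])
    (by
      intro y y' h
      have h1 : p1 (p1 y) = p1 (p1 y') := (pr_inj h).1
      have h2 : p2 (p2 y) = p2 (p2 y') := (pr_inj (pr_inj h).2).2
      have h3 : P.f (p2 (p1 y)) (p1 (p2 y)) = P.f (p2 (p1 y')) (p1 (p2 y')) :=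
        (pr_inj (pr_inj h).2).1
      obtain ⟨h4, h5⟩ := P.inj h3
      rcases h5 with h5 | h5
      · have e1 : y = pr (pr (p1 (p1 y)) (p2 (p1 y)))
            (pr (hh G).b (pr (p1 (p2 (p2 y))) (p2 (p2 (p2 y))))) := by
          rw [← rp_zero, ← h5]; rfl
        have e2 : y' = pr (pr (p1 (p1 y')) (p2 (p1 y')))
            (pr (hh G).b (pr (p1 (p2 (p2 y'))) (p2 (p2 (p2 y'))))) := by
          rw [← rp_zero, ← h5, h4]; rfl
        rw [e1, e2, hψ, hψ, h2]
      · have e1 : y = y' := by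
          have e2 : y = pr (pr (p1 (p1 y)) (p2 (p1 y))) (pr (p1 (p2 y)) (p2 (p2 y))) := rfl
          rw [e2, h1, h5, h2]
          change pr _ (pr (rp (p1 (p2 y))) _) = y'
          rw [h4]; rfl
        rw [e1])
    (by
      intro x y h
      have h1 : p1 x = p1 (p1 y) := (pr_inj h).1
      have h2 : p2 x = p2 (p2 y) := (pr_inj (pr_inj h).2).2
      have h3 : D.b = P.f (p2 (p1 y)) (p1 (p2 y)) := (pr_inj (pr_inj h).2).1
      have h4 := (P.inj ((P.zero (p2 (p1 y))).trans h3)).1
      have e1 : y = pr (pr (p1 (p1 y)) (p2 (p1 y)))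
          (pr (hh G).b (pr (p1 (p2 (p2 y))) (p2 (p2 (p2 y))))) := by
        rw [← rp_zero]
        change pr _ (pr (rp (p1 (p2 y))) _) = _
        rw [← h4]; rfl
      rw [e1, hψ, ← h2]; rfl)
  exact ⟨A, C, v, hv, k, fun e x a => hk (pr e (pr x a))⟩

/-! ### Open cones -/

/-- `Y` is the open cone `X ∪ Z × [0, ∞)` of a map `ι : Z ⟶ X` -/
structure OpenCone (X Z Y : GSpace G) where
  /-- the map of which `Y` is the cone -/
  ι : PM Z X
  /-- its values -/
  fι : Z.carrier → X.carrier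
  at_ι : ∀ z, ι.at' (OnePoint.some z) = OnePoint.some (fι z)
  /-- the inclusion of `X` -/
  i : PM X Y
  /-- its values -/
  fi : X.carrier → Y.carrier
  at_i : ∀ x, i.at' (OnePoint.some x) = OnePoint.some (fi x)
  /-- the cone coordinates -/
  j : PM ((hh G).B.prod Z) Y
  /-- its values -/
  fj : NNReal → Z.carrier → Y.carrier
  at_j : ∀ r z, j.at' (OnePoint.some (pr (rp r) z)) = OnePoint.some (fj r z)
  inj_i : ∀ {x x'}, fi x = fi x' → x = x'
  inj_j : ∀ {r r' z z'}, fj r z = fj r' z' →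
    (r = 0 ∧ r' = 0 ∧ fι z = fι z') ∨ (r = r' ∧ z = z')
  glue : ∀ z, fj 0 z = fi (fι z)
  meet : ∀ {x r z}, fi x = fj r z → r = 0
  surj : ∀ y, (∃ x, fi x = y) ∨ ∃ r z, fj r z = y

/-- **Open cones**: nullity on `Z` and on the open cone of `Z ⟶ X` gives nullity on `X`. -/
theorem OpenCone.null [CompactSpace E.carrier] {Z Y : GSpace G} (O : OpenCone X Z Y)
    (h1 : N V E β Z) (h2 : N V (pt G).B γ Y) : N V E (γ.prod β) X := by
  obtain ⟨A, C, v, hv, ψ, hψ⟩ := h1
  obtain ⟨A', C', v', hv', κ, hκ⟩ := h2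
  let a : PM (E.prod (X.prod (tr G A))) (E.prod (Y.prod (tr G A))) :=
    (PM.id _).prod (O.i.prod (PM.id _))
  let s : PM (E.prod ((hh G).B.prod (Z.prod (tr G A))))
      (E.prod (((hh G).B.prod Z).prod (tr G A))) :=
    PM.emb (fun z => pr (p1 z) (pr (pr (p1 (p2 z)) (p1 (p2 (p2 z)))) (p2 (p2 (p2 z)))))
      (fun w => pr (p1 w) (pr (p1 (p1 (p2 w))) (pr (p2 (p1 (p2 w))) (p2 (p2 w)))))
      (by fun_prop) (by fun_prop) (fun _ => rfl) (fun _ _ => rfl)
  let b : PM (E.prod ((hh G).B.prod (Z.prod (tr G A)))) (E.prod (Y.prod (tr G A))) :=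
    s.comp ((PM.id _).prod (O.j.prod (PM.id _)))
  have hb : ∀ y, b.at' (OnePoint.some y) =
      OnePoint.some (pr (p1 y) (pr (O.fj (rq (p1 (p2 y))) (p1 (p2 (p2 y)))) (p2 (p2 (p2 y))))) := by
    intro y
    exact congrArg (fun w => sm (OnePoint.some (p1 y)) (sm w (OnePoint.some (p2 (p2 (p2 y))))))
      (O.at_j (rq (p1 (p2 y))) (p1 (p2 (p2 y))))
  obtain ⟨g, hg, -⟩ := PM.exists_desc a b (fun z => pr (p1 z) (pr (O.fi (p1 (p2 z))) (p2 (p2 z))))
    (fun y => pr (p1 y) (pr (O.fj (rq (p1 (p2 y))) (p1 (p2 (p2 y)))) (p2 (p2 (p2 y)))))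
    (fun x => congrArg (fun w => sm (OnePoint.some (p1 x)) (sm w (OnePoint.some (p2 (p2 x)))))
      (O.at_i (p1 (p2 x)))) hb
    (by
      intro p
      rcases O.surj (p1 (p2 p)) with ⟨x, h⟩ | ⟨r, z, h⟩
      · exact Or.inl ⟨pr (p1 p) (pr x (p2 (p2 p))), by
          change pr (p1 p) (pr (O.fi x) (p2 (p2 p))) = p
          rw [h]; rfl⟩
      · exact Or.inr ⟨pr (p1 p) (pr (rp r) (pr z (p2 (p2 p)))), by
          change pr (p1 p) (pr (O.fj r z) (p2 (p2 p))) = p
          rw [h]; rfl⟩)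
    ((cst E β).prod ((PM.id X).prod (trM G v)))
    (ψ.comp ((PM.id _).prod (O.ι.prod (PM.id _))))
    (by
      intro x x' h
      have h1 : p1 x = p1 x' := (pr_inj h).1
      have h2 : p1 (p2 x) = p1 (p2 x') := O.inj_i (pr_inj (pr_inj h).2).1
      have h3 : p2 (p2 x) = p2 (p2 x') := (pr_inj (pr_inj h).2).2
      rw [← pr_p1_p2 x, ← pr_p1_p2 x', ← pr_p1_p2 (p2 x), ← pr_p1_p2 (p2 x'), h1, h2, h3])
    (by
      intro y y' h
      have h1 : p1 y = p1 y' := (pr_inj h).1
      have h3 : p2 (p2 (p2 y)) = p2 (p2 (p2 y')) := (pr_inj (pr_inj h).2).2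
      rcases O.inj_j (pr_inj (pr_inj h).2).1 with ⟨hr, hr', hz⟩ | ⟨hr, hz⟩
      · have e1 : y = pr (p1 y) (pr (hh G).b (pr (p1 (p2 (p2 y))) (p2 (p2 (p2 y))))) := by
          rw [← rp_zero, ← hr]; rfl
        have e2 : y' = pr (p1 y') (pr (hh G).b (pr (p1 (p2 (p2 y'))) (p2 (p2 (p2 y'))))) := by
          rw [← rp_zero, ← hr']; rfl
        have key : ∀ e z t, (ψ.comp ((PM.id _).prod (O.ι.prod (PM.id _)))).at'
            (OnePoint.some (pr e (pr (hh G).b (pr z t)))) =
            sm (OnePoint.some β.b) (sm (OnePoint.some (O.fι z)) (vat v (OnePoint.some t))) := by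
          intro e z t
          rw [PM.at_comp, hψ, PM.at_prod, PM.at_prod, O.at_ι]; rfl
        rw [e1, e2, key, key, hz, h3]
      · have e1 : y = y' := by
          have e2 : y = pr (p1 y) (pr (p1 (p2 y)) (pr (p1 (p2 (p2 y))) (p2 (p2 (p2 y))))) := rfl
          have e3 : p1 (p2 y) = p1 (p2 y') := hr
          rw [e2, h1, hz, h3, e3]; rfl
        rw [e1])
    (by
      intro x y h
      have h1 : p1 x = p1 y := (pr_inj h).1
      have h3 : p2 (p2 x) = p2 (p2 (p2 y)) := (pr_inj (pr_inj h).2).2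
      have h4 := (pr_inj (pr_inj h).2).1
      have h5 : rq (p1 (p2 y)) = 0 := O.meet h4
      have e1 : y = pr (p1 y) (pr (hh G).b (pr (p1 (p2 (p2 y))) (p2 (p2 (p2 y))))) := by
        rw [← rp_zero, ← h5]; rfl
      have h6 : p1 (p2 x) = O.fι (p1 (p2 (p2 y))) := by
        apply O.inj_i
        rw [← O.glue]
        refine h4.trans ?_
        rw [h5]
      rw [e1, PM.at_comp, hψ, PM.at_prod, PM.at_prod, O.at_ι, ← h6, ← h3]; rfl)
  let s₁ : PM (E.prod ((hh G).B.prod (X.prod (tr G (A' ⊗ A)))))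
      (((hh G).B.prod (X.prod (tr G A'))).prod (E.prod (tr G A))) :=
    PM.emb (fun z => pr (pr (p1 (p2 z)) (pr (p1 (p2 (p2 z))) (t1 (p2 (p2 (p2 z))))))
        (pr (p1 z) (t2 (p2 (p2 (p2 z))))))
      (fun w => pr (p1 (p2 w)) (pr (p1 (p1 w)) (pr (p1 (p2 (p1 w)))
        (tq (p2 (p2 (p1 w))) (p2 (p2 w))))))
      (by fun_prop) (by fun_prop) (fun _ => rfl) (fun _ _ => rfl)
  let u : PM ((hh G).B.prod (Y.prod (tr G A')))
      ((pt G).B.prod ((hh G).B.prod (Y.prod (tr G A')))) :=
    PM.emb (fun z => pr (pt G).b z) p2 (continuous_pr continuous_const continuous_id)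
      (by fun_prop) (fun _ => rfl) (fun _ _ => rfl)
  let s₂ : PM ((γ.B.prod (Y.prod (tr G C'))).prod (E.prod (tr G A)))
      ((E.prod (Y.prod (tr G A))).prod (γ.B.prod (tr G C'))) :=
    PM.emb (fun z => pr (pr (p1 (p2 z)) (pr (p1 (p2 (p1 z))) (p2 (p2 z))))
        (pr (p1 (p1 z)) (p2 (p2 (p1 z)))))
      (fun w => pr (pr (p1 (p2 w)) (pr (p1 (p2 (p1 w))) (p2 (p2 w))))
        (pr (p1 (p1 w)) (p2 (p2 (p1 w)))))
      (by fun_prop) (by fun_prop) (fun _ => rfl) (fun _ _ => rfl)
  let s₃ : PM ((β.B.prod (X.prod (tr G C))).prod (γ.B.prod (tr G C')))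
      ((γ.B.prod β.B).prod (X.prod (tr G (C' ⊗ C)))) :=
    PM.emb (fun z => pr (pr (p1 (p2 z)) (p1 (p1 z))) (pr (p1 (p2 (p1 z)))
        (tq (p2 (p2 z)) (p2 (p2 (p1 z))))))
      (fun w => pr (pr (p2 (p1 w)) (pr (p1 (p2 w)) (t2 (p2 (p2 w)))))
        (pr (p1 (p1 w)) (t1 (p2 (p2 w)))))
      (by fun_prop) (by fun_prop) (fun _ => rfl) (fun _ _ => rfl)
  refine ⟨A' ⊗ A, C' ⊗ C, v' ⊗ₘ v, V.mul hv' hv,
    s₁.comp ((((PM.id _).prod (O.i.prod (PM.id _))).prod (PM.id _)).comp
      (((u.comp κ).prod (PM.id _)).comp (s₂.comp ((g.prod (PM.id _)).comp s₃)))), ?_⟩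
  intro e x a
  obtain ⟨a', a, rfl⟩ : ∃ a₁ a₂, a = tq a₁ a₂ := ⟨t1 a, t2 a, rfl⟩
  rw [vat_tensor]
  change s₃.at' ((g.prod (PM.id _)).at' (s₂.at' (((u.comp κ).prod (PM.id _)).at'
    (sm (sm (OnePoint.some (hh G).b) (sm (O.i.at' (OnePoint.some x)) (OnePoint.some a')))
      (OnePoint.some (pr e a)))))) = _
  rw [O.at_i, PM.at_prod, PM.at_comp, PM.at_id]
  change s₃.at' ((g.prod (PM.id _)).at' (s₂.at' (sm (κ.at' (OnePoint.some (pr (pt G).b
    (pr (hh G).b (pr (O.fi x) a'))))) (OnePoint.some (pr e a))))) = _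
  rw [hκ]
  generalize vat v' (OnePoint.some a') = c'
  induction c' using OnePoint.rec with
  | infty => simp; rfl
  | coe c' =>
    rw [show s₂.at' (sm (sm (OnePoint.some γ.b) (sm (OnePoint.some (O.fi x)) (OnePoint.some c')))
      (OnePoint.some (pr e a))) = sm (OnePoint.some (pr e (pr (O.fi x) a)))
        (OnePoint.some (pr γ.b c')) from rfl, PM.at_prod, PM.at_id]
    have h3 := hg (pr e (pr x a))
    change g.at' (OnePoint.some (pr e (pr (O.fi x) a))) = sm (OnePoint.some β.b)
      (sm (OnePoint.some x) (vat v (OnePoint.some a))) at h3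
    rw [h3]
    generalize vat v (OnePoint.some a) = c
    induction c using OnePoint.rec with
    | infty => simp; rfl
    | coe c => rfl

end

/-! ### Honest null-homotopies -/

/-- an honest null-homotopy is an extension over the half line -/
theorem PM.null_of_htpy {Y Z : GSpace G} (f : PM Y Z)
    (h : GHomotopic (X := Y) (Y := Z) f.at' (fun _ => ∞)) :
    ∃ k : PM (Y.prod (hh G).B) Z,
      ∀ y, k.at' (OnePoint.some (pr y (hh G).b)) = f.at' (OnePoint.some y) := by
  obtain ⟨H, ⟨⟨hc, hi⟩, he⟩, h0, h1⟩ := h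
  let J : Y.carrier × NNReal → OnePoint Y.carrier × unitInterval :=
    fun p => ((p.1 : OnePoint Y.carrier), coneFun p.2)
  have hJ : IsOpenEmbedding J := OnePoint.isOpenEmbedding_coe.prodMap isOpenEmbedding_coneFun
  let F : OnePoint Y.carrier × unitInterval → OnePoint Z.carrier :=
    fun p => H (unitInterval.symm p.2) p.1
  have hF : Continuous F := hc.comp
    ((unitInterval.continuous_symm.comp continuous_snd).prodMk continuous_fst)
  let k : LC.of (Y.carrier × NNReal) ⟶ LC.of Z.carrier :=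
    ofCompactification (X := LC.of (Y.carrier × NNReal)) (Y := LC.of Z.carrier) J hJ F hF (by
      rintro ⟨y, t⟩ hyt
      induction y using OnePoint.rec with
      | infty => exact hi _
      | coe y =>
        have ht : t = 0 := by
          by_contra ht
          have h3 : (0 : ℝ) < t := lt_of_le_of_ne t.2.1 fun h => ht (Subtype.ext h.symm)
          have h4 : (0 : ℝ) ≤ 1 / (t : ℝ) - 1 := by
            rw [sub_nonneg, le_div_iff₀ h3]
            linarith [t.2.2]
          refine hyt ⟨(y, ⟨1 / (t : ℝ) - 1, h4⟩), Prod.ext rfl (Subtype.ext ?_)⟩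
          change 1 / (1 + (1 / (t : ℝ) - 1)) = t
          rw [add_sub_cancel, one_div_one_div]
        subst ht
        change H (unitInterval.symm 0) _ = ∞
        rw [unitInterval.symm_zero, h1])
  refine ⟨⟨k, fun g z => ?_⟩, fun y => ?_⟩
  · change H (unitInterval.symm (coneFun z.2)) ((g • z.1 : Y.carrier) : OnePoint Y.carrier) =
      Z.smul g (H (unitInterval.symm (coneFun z.2)) (z.1 : OnePoint Y.carrier))
    exact he _ g (OnePoint.some z.1)
  · change H (unitInterval.symm (coneFun 0)) (OnePoint.some y) = _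
    have h3 : unitInterval.symm (coneFun 0) = 0 := by
      have h4 : coneFun 0 = 1 := by
        apply Subtype.ext
        change (1 : ℝ) / (1 + ((0 : NNReal) : ℝ)) = 1
        simp
      rw [h4, unitInterval.symm_one]
    rw [h3, h0]

section

variable {V : TClass} {E E' : GSpace G} {γ β δ γ' β' : PB G} {X : GSpace G}

/-- an honest null-homotopy gives nullity -/
theorem N_of_htpy {A C : LC} (v : A ⟶ C) (hv : V.mem v)
    (f : PM (E.prod (X.prod (tr G A))) (β.B.prod (X.prod (tr G C))))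
    (hf : ∀ (e : E.carrier) (x : X.carrier) (a : (tr G A).carrier),
      f.at' (OnePoint.some (pr e (pr x a))) =
        sm (OnePoint.some β.b) (sm (OnePoint.some x) (vat v (OnePoint.some a))))
    (h : GHomotopic (X := E.prod (X.prod (tr G A))) (Y := β.B.prod (X.prod (tr G C)))
      f.at' (fun _ => ∞)) : N V E β X := by
  obtain ⟨k, hk⟩ := f.null_of_htpy h
  let s : PM (E.prod ((hh G).B.prod (X.prod (tr G A)))) ((E.prod (X.prod (tr G A))).prod (hh G).B) :=
    PM.emb (fun z => pr (pr (p1 z) (p2 (p2 z))) (p1 (p2 z)))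
      (fun w => pr (p1 (p1 w)) (pr (p2 w) (p2 (p1 w))))
      (by fun_prop) (by fun_prop) (fun _ => rfl) (fun _ _ => rfl)
  exact ⟨A, C, v, hv, s.comp k, fun e x a => (hk (pr e (pr x a))).trans (hf e x a)⟩

end

/-! ### Lists -/

/-- the product of a list -/
def PB.list : List (PB G) → PB G
  | [] => pt G
  | β :: l => β.prod (PB.list l)

section

variable {V : TClass} {E : GSpace G} [CompactSpace E.carrier] {X : GSpace G}

theorem Fact.prodList {ι : Type*} (l : List ι) (f g : ι → PB G)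
    (h : ∀ i ∈ l, Fact V E (f i) (g i) X) :
    Fact V E (PB.list (l.map f)) (PB.list (l.map g)) X := by
  induction l with
  | nil => exact Fact.refl V _ X
  | cons i l ih =>
    exact (h i List.mem_cons_self).prod (ih fun j hj => h j (List.mem_cons_of_mem _ hj))

end

end Vale.Agent.P241.H808
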