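import Vale.Agent.P241.H585.GSpace
import Vale.Agent.P251.G.Homotopy

/-!
# P241, route E: nullity calculus for equivariant maps, part 1

* `PM X Y` : pointed `G`-maps, as morphisms of `LC`.
* `tr A` : trivial action.
* `TClass` : a class of maps (without action), closed under products.
* `PB G` : a `G`-space with a fixed point.
* `Fact V E γ β X` : the map `X ⟶ β ∧ X`, multiplied by a member `v` of `V`, factors over `E`
  through `X ⟶ γ ∧ X`. `N V E β X` is the case of the half line, a null-homotopy.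
-/

open CategoryTheory MonoidalCategory Filter Topology OnePoint

open Vale.Agent.P251.St (Space Map)
open Vale.Agent.P251.G Vale.Agent.P251.G.LC
open Vale.Agent.P241.St

namespace Vale.Agent.P241.H808

variable {G : Type} [Group G]

/-! ### Pointed `G`-maps -/

/-- a pointed `G`-map `X⁺ → Y⁺` -/
structure PM (X Y : GSpace G) where
  /-- the underlying morphism -/
  hom : LC.of X.carrier ⟶ LC.of Y.carrier
  eqv : ∀ (g : G) (x : X.carrier), app hom ((g • x : X.carrier) : OnePoint X.carrier) =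
    Y.smul g (app hom (x : OnePoint X.carrier))

/-- the value at a point of the compactification -/
def PM.at' {X Y : GSpace G} (f : PM X Y) (x : OnePoint X.carrier) : OnePoint Y.carrier :=
  app f.hom x

@[simp] theorem PM.at_infty {X Y : GSpace G} (f : PM X Y) : f.at' ∞ = ∞ := app_infty _

@[simp] theorem smul_infty (X : GSpace G) (g : G) : X.smul g ∞ = ∞ := rfl

@[simp] theorem smul_coe (X : GSpace G) (g : G) (x : X.carrier) :
    X.smul g (x : OnePoint X.carrier) = ((g • x : X.carrier) : OnePoint X.carrier) := rfl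

theorem PM.at_smul {X Y : GSpace G} (f : PM X Y) (g : G) (x : OnePoint X.carrier) :
    f.at' (X.smul g x) = Y.smul g (f.at' x) := by
  induction x using OnePoint.rec with
  | infty => rw [smul_infty, PM.at_infty]; rfl
  | coe x => exact f.eqv g x

/-- composition -/
def PM.comp {X Y Z : GSpace G} (f : PM X Y) (g : PM Y Z) : PM X Z where
  hom := f.hom ≫ g.hom
  eqv a x := by
    change g.at' (f.at' _) = Z.smul a (g.at' (f.at' _))
    rw [← g.at_smul]
    exact congrArg _ (f.eqv a x)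

@[simp] theorem PM.at_comp {X Y Z : GSpace G} (f : PM X Y) (g : PM Y Z) (x : OnePoint X.carrier) :
    (f.comp g).at' x = g.at' (f.at' x) := rfl

/-- the identity -/
def PM.id (X : GSpace G) : PM X X where
  hom := 𝟙 _
  eqv _ _ := rfl

@[simp] theorem PM.at_id (X : GSpace G) (x : OnePoint X.carrier) : (PM.id X).at' x = x := rfl

theorem smul_smash (X Y : GSpace G) (g : G) (x : OnePoint X.carrier) (y : OnePoint Y.carrier) :
    (X.prod Y).smul g (smash x y) = smash (X.smul g x) (Y.smul g y) := by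
  induction x using OnePoint.rec with
  | infty => rfl
  | coe x =>
    induction y using OnePoint.rec with
    | infty => rfl
    | coe y => rfl

/-- the pair of two points -/
def pr {X Y : GSpace G} (x : X.carrier) (y : Y.carrier) : (X.prod Y).carrier := (x, y)

theorem pr_surj {X Y : GSpace G} (z : (X.prod Y).carrier) : ∃ x y, z = pr x y := ⟨z.1, z.2, rfl⟩

@[simp] theorem smul_pr {X Y : GSpace G} (g : G) (x : X.carrier) (y : Y.carrier) :
    g • (pr x y : (X.prod Y).carrier) = pr (g • x) (g • y) := rfl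

/-- the first coordinate -/
def p1 {X Y : GSpace G} (z : (X.prod Y).carrier) : X.carrier := z.1

/-- the second coordinate -/
def p2 {X Y : GSpace G} (z : (X.prod Y).carrier) : Y.carrier := z.2

@[simp] theorem p1_pr {X Y : GSpace G} (x : X.carrier) (y : Y.carrier) : p1 (pr x y) = x := rfl

@[simp] theorem p2_pr {X Y : GSpace G} (x : X.carrier) (y : Y.carrier) : p2 (pr x y) = y := rfl

@[simp] theorem pr_p1_p2 {X Y : GSpace G} (z : (X.prod Y).carrier) : pr (p1 z) (p2 z) = z := rfl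

theorem p1_smul {X Y : GSpace G} (g : G) (z : (X.prod Y).carrier) : p1 (g • z) = g • p1 z := rfl

theorem p2_smul {X Y : GSpace G} (g : G) (z : (X.prod Y).carrier) : p2 (g • z) = g • p2 z := rfl

@[fun_prop] theorem continuous_p1 {X Y : GSpace G} :
    Continuous (p1 : (X.prod Y).carrier → X.carrier) := continuous_fst

@[fun_prop] theorem continuous_p2 {X Y : GSpace G} :
    Continuous (p2 : (X.prod Y).carrier → Y.carrier) := continuous_snd

@[fun_prop] theorem continuous_pr {X Y : GSpace G} {Z : Type*} [TopologicalSpace Z]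
    {f : Z → X.carrier} {g : Z → Y.carrier} (hf : Continuous f) (hg : Continuous g) :
    Continuous (fun z => (pr (f z) (g z) : (X.prod Y).carrier)) := hf.prodMk hg

/-- the smash of two points of the compactifications -/
def sm {X Y : GSpace G} (x : OnePoint X.carrier) (y : OnePoint Y.carrier) :
    OnePoint (X.prod Y).carrier := smash x y

@[simp] theorem sm_coe {X Y : GSpace G} (x : X.carrier) (y : Y.carrier) :
    sm (X := X) (Y := Y) (x : OnePoint X.carrier) (y : OnePoint Y.carrier) =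
      ((pr x y : (X.prod Y).carrier) : OnePoint (X.prod Y).carrier) := rfl

@[simp] theorem sm_infty_left {X Y : GSpace G} (y : OnePoint Y.carrier) :
    sm (X := X) (Y := Y) ∞ y = ∞ := rfl

@[simp] theorem sm_infty_right {X Y : GSpace G} (x : OnePoint X.carrier) :
    sm (X := X) (Y := Y) x ∞ = ∞ := smash_infty_right x

theorem smul_sm {X Y : GSpace G} (g : G) (x : OnePoint X.carrier) (y : OnePoint Y.carrier) :
    (X.prod Y).smul g (sm x y) = sm (X.smul g x) (Y.smul g y) := smul_smash X Y g x y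

/-- the product of two pointed `G`-maps -/
def PM.prod {X Y Z W : GSpace G} (f : PM X Y) (g : PM Z W) : PM (X.prod Z) (Y.prod W) where
  hom := tensorHom' f.hom g.hom
  eqv a x := by
    change sm (f.at' (a • x.1 : X.carrier)) (g.at' (a • x.2 : Z.carrier)) =
      (Y.prod W).smul a (sm (f.at' x.1) (g.at' x.2))
    rw [smul_sm, ← f.at_smul, ← g.at_smul]
    rfl

@[simp] theorem PM.at_prod_coe {X Y Z W : GSpace G} (f : PM X Y) (g : PM Z W) (x : X.carrier)
    (z : Z.carrier) : (f.prod g).at' ((pr x z : (X.prod Z).carrier) :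
      OnePoint (X.prod Z).carrier) = sm (f.at' x) (g.at' z) := rfl

@[simp] theorem PM.at_prod {X Y Z W : GSpace G} (f : PM X Y) (g : PM Z W)
    (x : OnePoint X.carrier) (z : OnePoint Z.carrier) :
    (f.prod g).at' (sm x z) = sm (f.at' x) (g.at' z) := by
  induction x using OnePoint.rec with
  | infty => rw [sm_infty_left, PM.at_infty, PM.at_infty, sm_infty_left]
  | coe x =>
    induction z using OnePoint.rec with
    | infty => rw [sm_infty_right, PM.at_infty, PM.at_infty, sm_infty_right]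
    | coe z => rfl

/-- a proper continuous equivariant map -/
def PM.ofProper {X Y : GSpace G} (f : X.carrier → Y.carrier) (hf : Continuous f)
    (h : Tendsto f (cocompact X.carrier) (cocompact Y.carrier))
    (he : ∀ (g : G) (x : X.carrier), f (g • x) = g • f x) : PM X Y where
  hom := LC.ofProper (X := LC.of X.carrier) (Y := LC.of Y.carrier) f hf h
  eqv a x := congrArg (OnePoint.some (X := Y.carrier)) (he a x)

@[simp] theorem PM.at_ofProper {X Y : GSpace G} (f : X.carrier → Y.carrier) (hf : Continuous f)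
    (h : Tendsto f (cocompact X.carrier) (cocompact Y.carrier))
    (he : ∀ (g : G) (x : X.carrier), f (g • x) = g • f x) (x : X.carrier) :
    (PM.ofProper f hf h he).at' (x : OnePoint X.carrier) = (f x : OnePoint Y.carrier) := rfl

/-- a continuous equivariant map with a continuous left inverse -/
def PM.emb {X Y : GSpace G} (f : X.carrier → Y.carrier) (r : Y.carrier → X.carrier)
    (hf : Continuous f) (hr : Continuous r) (h : ∀ x, r (f x) = x)
    (he : ∀ (g : G) (x : X.carrier), f (g • x) = g • f x) : PM X Y :=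
  PM.ofProper f hf (Function.LeftInverse.isClosedEmbedding (g := f) (f := r) h hr
    hf).tendsto_cocompact he

@[simp] theorem PM.at_emb {X Y : GSpace G} (f : X.carrier → Y.carrier) (r : Y.carrier → X.carrier)
    (hf : Continuous f) (hr : Continuous r) (h : ∀ x, r (f x) = x)
    (he : ∀ (g : G) (x : X.carrier), f (g • x) = g • f x) (x : X.carrier) :
    (PM.emb f r hf hr h he).at' (x : OnePoint X.carrier) = (f x : OnePoint Y.carrier) := rfl

/-- the trivial action on an object of `LC` -/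
abbrev tr (G : Type) [Group G] (A : LC) : GSpace G := GSpace.triv G ⟨A.carrier⟩

/-- a point of `A` -/
def tp {A : LC} (a : A) : (tr G A).carrier := a

theorem tr_smul {A : LC} (g : G) (x : OnePoint (tr G A).carrier) : (tr G A).smul g x = x := by
  induction x using OnePoint.rec with
  | infty => rfl
  | coe y => rfl

/-- a map without action, between trivial actions -/
def trM (G : Type) [Group G] {A C : LC} (v : A ⟶ C) : PM (tr G A) (tr G C) where
  hom := v
  eqv g x := (tr_smul (A := C) g (app v (OnePoint.some (X := A) x))).symm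

/-- the value of a map without action -/
def vat {A C : LC} (v : A ⟶ C) (a : OnePoint (tr G A).carrier) : OnePoint (tr G C).carrier :=
  app v (show OnePoint A from a)

@[simp] theorem at_trM {A C : LC} (v : A ⟶ C) (a : OnePoint (tr G A).carrier) :
    (trM G v).at' a = vat v a := rfl

/-- the pair of two points without action -/
def tq {A B : LC} (a : (tr G A).carrier) (b : (tr G B).carrier) : (tr G (A ⊗ B)).carrier := (a, b)

/-- the first coordinate -/
def t1 {A B : LC} (z : (tr G (A ⊗ B)).carrier) : (tr G A).carrier := z.1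

/-- the second coordinate -/
def t2 {A B : LC} (z : (tr G (A ⊗ B)).carrier) : (tr G B).carrier := z.2

@[simp] theorem t1_tq {A B : LC} (a : (tr G A).carrier) (b : (tr G B).carrier) :
    t1 (tq a b) = a := rfl

@[simp] theorem t2_tq {A B : LC} (a : (tr G A).carrier) (b : (tr G B).carrier) :
    t2 (tq a b) = b := rfl

@[simp] theorem tq_t1_t2 {A B : LC} (z : (tr G (A ⊗ B)).carrier) : tq (t1 z) (t2 z) = z := rfl

@[fun_prop] theorem continuous_t1 {A B : LC} :
    Continuous (t1 : (tr G (A ⊗ B)).carrier → (tr G A).carrier) := continuous_fst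

@[fun_prop] theorem continuous_t2 {A B : LC} :
    Continuous (t2 : (tr G (A ⊗ B)).carrier → (tr G B).carrier) := continuous_snd

@[fun_prop] theorem continuous_tq {A B : LC} {Z : Type*} [TopologicalSpace Z]
    {f : Z → (tr G A).carrier} {g : Z → (tr G B).carrier} (hf : Continuous f)
    (hg : Continuous g) : Continuous (fun z => tq (f z) (g z)) := hf.prodMk hg

@[simp] theorem smul_tr {A : LC} (g : G) (a : (tr G A).carrier) : g • a = a := rfl

/-- the smash of two points without action -/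
def tsm {A B : LC} (a : OnePoint (tr G A).carrier) (b : OnePoint (tr G B).carrier) :
    OnePoint (tr G (A ⊗ B)).carrier := smash (X := A.carrier) (Y := B.carrier) a b

@[simp] theorem tsm_coe {A B : LC} (a : (tr G A).carrier) (b : (tr G B).carrier) :
    tsm (OnePoint.some a) (OnePoint.some b) = OnePoint.some (tq a b) := rfl

@[simp] theorem tsm_infty_left {A B : LC} (b : OnePoint (tr G B).carrier) :
    tsm (A := A) ∞ b = ∞ := rfl

@[simp] theorem tsm_infty_right {A B : LC} (a : OnePoint (tr G A).carrier) :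
    tsm (B := B) a ∞ = ∞ := smash_infty_right (X := A.carrier) a

theorem vat_tensor {A B C D : LC} (v : A ⟶ C) (w : B ⟶ D) (a : (tr G A).carrier)
    (b : (tr G B).carrier) : vat (G := G) (v ⊗ₘ w) (OnePoint.some (tq a b)) =
      tsm (vat v (OnePoint.some a)) (vat w (OnePoint.some b)) := rfl

/-! ### Classes of maps and spaces with a fixed point -/

/-- a class of pointed maps which is closed under products -/
structure TClass where
  /-- the members -/
  mem : ∀ {A C : LC}, (A ⟶ C) → Prop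
  one : mem (𝟙 (𝟙_ LC))
  mul : ∀ {A C A' C' : LC} {v : A ⟶ C} {v' : A' ⟶ C'}, mem v → mem v' → mem (v ⊗ₘ v')

/-- a `G`-space with a fixed point -/
structure PB (G : Type) [Group G] where
  /-- the space -/
  B : GSpace G
  /-- the point -/
  b : B.carrier
  fix : ∀ g : G, g • b = b

/-- the product of two spaces with fixed points -/
def PB.prod (β γ : PB G) : PB G where
  B := β.B.prod γ.B
  b := (β.b, γ.b)
  fix g := Prod.ext (β.fix g) (γ.fix g)

/-- the half line with the point `0` -/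
def hh (G : Type) [Group G] : PB G where
  B := tr G HH
  b := (0 : NNReal)
  fix _ := rfl

/-- the point -/
def pt (G : Type) [Group G] : PB G where
  B := tr G (𝟙_ LC)
  b := ()
  fix _ := rfl

/-- **Factorisation over `E`.** -/
def Fact (V : TClass) (E : GSpace G) (γ β : PB G) (X : GSpace G) : Prop :=
  ∃ (A C : LC) (v : A ⟶ C), V.mem v ∧
    ∃ ψ : PM (E.prod (γ.B.prod (X.prod (tr G A)))) (β.B.prod (X.prod (tr G C))),
      ∀ (e : E.carrier) (x : X.carrier) (a : (tr G A).carrier),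
        ψ.at' (OnePoint.some (pr e (pr γ.b (pr x a)))) =
          sm (OnePoint.some β.b) (sm (OnePoint.some x) (vat v (OnePoint.some a)))

/-- **Nullity over `E`.** -/
abbrev N (V : TClass) (E : GSpace G) (β : PB G) (X : GSpace G) : Prop := Fact V E (hh G) β X

/-! ### Composition, products, change of spaces -/

section Calculus

variable {V : TClass} {E E' : GSpace G} {γ β δ γ' β' : PB G} {X : GSpace G}

theorem Fact.comp (h1 : Fact V E γ β X) (h2 : Fact V E β δ X) : Fact V E γ δ X := by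
  obtain ⟨A₁, C₁, v₁, hv₁, ψ₁, h₁⟩ := h1
  obtain ⟨A₂, C₂, v₂, hv₂, ψ₂, h₂⟩ := h2
  let s₁ : PM (E.prod (γ.B.prod (X.prod (tr G (A₁ ⊗ A₂)))))
      ((E.prod (γ.B.prod (X.prod (tr G A₁)))).prod (E.prod (tr G A₂))) :=
    PM.emb (fun z => pr (pr (p1 z) (pr (p1 (p2 z)) (pr (p1 (p2 (p2 z))) (t1 (p2 (p2 (p2 z)))))))
        (pr (p1 z) (t2 (p2 (p2 (p2 z))))))
      (fun w => pr (p1 (p1 w)) (pr (p1 (p2 (p1 w))) (pr (p1 (p2 (p2 (p1 w))))
        (tq (p2 (p2 (p2 (p1 w)))) (p2 (p2 w))))))
      (by fun_prop) (by fun_prop) (fun _ => rfl) (fun _ _ => rfl)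
  let s₂ : PM ((β.B.prod (X.prod (tr G C₁))).prod (E.prod (tr G A₂)))
      ((E.prod (β.B.prod (X.prod (tr G A₂)))).prod (tr G C₁)) :=
    PM.emb (fun z => pr (pr (p1 (p2 z)) (pr (p1 (p1 z)) (pr (p1 (p2 (p1 z))) (p2 (p2 z)))))
        (p2 (p2 (p1 z))))
      (fun w => pr (pr (p1 (p2 (p1 w))) (pr (p1 (p2 (p2 (p1 w)))) (p2 w)))
        (pr (p1 (p1 w)) (p2 (p2 (p2 (p1 w))))))
      (by fun_prop) (by fun_prop) (fun _ => rfl) (fun _ _ => rfl)
  let s₃ : PM ((δ.B.prod (X.prod (tr G C₂))).prod (tr G C₁))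
      (δ.B.prod (X.prod (tr G (C₁ ⊗ C₂)))) :=
    PM.emb (fun z => pr (p1 (p1 z)) (pr (p1 (p2 (p1 z))) (tq (p2 z) (p2 (p2 (p1 z))))))
      (fun w => pr (pr (p1 w) (pr (p1 (p2 w)) (t2 (p2 (p2 w))))) (t1 (p2 (p2 w))))
      (by fun_prop) (by fun_prop) (fun _ => rfl) (fun _ _ => rfl)
  refine ⟨A₁ ⊗ A₂, C₁ ⊗ C₂, v₁ ⊗ₘ v₂, V.mul hv₁ hv₂,
    s₁.comp ((ψ₁.prod (PM.id _)).comp (s₂.comp ((ψ₂.prod (PM.id _)).comp s₃))), ?_⟩
  intro e x a
  obtain ⟨a₁, a₂, rfl⟩ : ∃ a₁ a₂, a = tq a₁ a₂ := ⟨t1 a, t2 a, rfl⟩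
  rw [vat_tensor]
  simp only [PM.at_comp]
  rw [show s₁.at' (OnePoint.some (pr e (pr γ.b (pr x (tq a₁ a₂))))) =
    sm (OnePoint.some (pr e (pr γ.b (pr x a₁)))) (OnePoint.some (pr e a₂)) from rfl,
    PM.at_prod, h₁, PM.at_id]
  generalize vat v₁ (OnePoint.some a₁) = c₁
  induction c₁ using OnePoint.rec with
  | infty => simp
  | coe c₁ =>
    rw [show s₂.at' (sm (sm (OnePoint.some β.b) (sm (OnePoint.some x) (OnePoint.some c₁)))
      (OnePoint.some (pr e a₂))) =
      sm (OnePoint.some (pr e (pr β.b (pr x a₂)))) (OnePoint.some c₁) from rfl,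
      PM.at_prod, h₂, PM.at_id]
    generalize vat v₂ (OnePoint.some a₂) = c₂
    induction c₂ using OnePoint.rec with
    | infty => simp
    | coe c₂ => rfl

theorem Fact.prod {γ₁ β₁ γ₂ β₂ : PB G} (h1 : Fact V E γ₁ β₁ X) (h2 : Fact V E γ₂ β₂ X) :
    Fact V E (γ₁.prod γ₂) (β₁.prod β₂) X := by
  obtain ⟨A₁, C₁, v₁, hv₁, ψ₁, h₁⟩ := h1
  obtain ⟨A₂, C₂, v₂, hv₂, ψ₂, h₂⟩ := h2
  let s₁ : PM (E.prod ((γ₁.B.prod γ₂.B).prod (X.prod (tr G (A₁ ⊗ A₂)))))
      ((E.prod (γ₁.B.prod (X.prod (tr G A₁)))).prod ((E.prod γ₂.B).prod (tr G A₂))) :=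
    PM.emb (fun z => pr (pr (p1 z) (pr (p1 (p1 (p2 z))) (pr (p1 (p2 (p2 z)))
        (t1 (p2 (p2 (p2 z))))))) (pr (pr (p1 z) (p2 (p1 (p2 z)))) (t2 (p2 (p2 (p2 z))))))
      (fun w => pr (p1 (p1 w)) (pr (pr (p1 (p2 (p1 w))) (p2 (p1 (p2 w))))
        (pr (p1 (p2 (p2 (p1 w)))) (tq (p2 (p2 (p2 (p1 w)))) (p2 (p2 w))))))
      (by fun_prop) (by fun_prop) (fun _ => rfl) (fun _ _ => rfl)
  let s₂ : PM ((β₁.B.prod (X.prod (tr G C₁))).prod ((E.prod γ₂.B).prod (tr G A₂)))
      ((E.prod (γ₂.B.prod (X.prod (tr G A₂)))).prod (β₁.B.prod (tr G C₁))) :=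
    PM.emb (fun z => pr (pr (p1 (p1 (p2 z))) (pr (p2 (p1 (p2 z))) (pr (p1 (p2 (p1 z)))
        (p2 (p2 z))))) (pr (p1 (p1 z)) (p2 (p2 (p1 z)))))
      (fun w => pr (pr (p1 (p2 w)) (pr (p1 (p2 (p2 (p1 w)))) (p2 (p2 w))))
        (pr (pr (p1 (p1 w)) (p1 (p2 (p1 w)))) (p2 (p2 (p2 (p1 w))))))
      (by fun_prop) (by fun_prop) (fun _ => rfl) (fun _ _ => rfl)
  let s₃ : PM ((β₂.B.prod (X.prod (tr G C₂))).prod (β₁.B.prod (tr G C₁)))
      ((β₁.B.prod β₂.B).prod (X.prod (tr G (C₁ ⊗ C₂)))) :=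
    PM.emb (fun z => pr (pr (p1 (p2 z)) (p1 (p1 z))) (pr (p1 (p2 (p1 z)))
        (tq (p2 (p2 z)) (p2 (p2 (p1 z))))))
      (fun w => pr (pr (p2 (p1 w)) (pr (p1 (p2 w)) (t2 (p2 (p2 w)))))
        (pr (p1 (p1 w)) (t1 (p2 (p2 w)))))
      (by fun_prop) (by fun_prop) (fun _ => rfl) (fun _ _ => rfl)
  refine ⟨A₁ ⊗ A₂, C₁ ⊗ C₂, v₁ ⊗ₘ v₂, V.mul hv₁ hv₂,
    s₁.comp ((ψ₁.prod (PM.id _)).comp (s₂.comp ((ψ₂.prod (PM.id _)).comp s₃))), ?_⟩
  intro e x a
  obtain ⟨a₁, a₂, rfl⟩ : ∃ a₁ a₂, a = tq a₁ a₂ := ⟨t1 a, t2 a, rfl⟩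
  rw [vat_tensor]
  change s₃.at' ((ψ₂.prod (PM.id _)).at' (s₂.at' ((ψ₁.prod (PM.id _)).at'
    (sm (OnePoint.some (pr e (pr γ₁.b (pr x a₁)))) (OnePoint.some (pr (pr e γ₂.b) a₂)))))) = _
  rw [PM.at_prod, h₁, PM.at_id]
  generalize vat v₁ (OnePoint.some a₁) = c₁
  induction c₁ using OnePoint.rec with
  | infty => simp; rfl
  | coe c₁ =>
    rw [show s₂.at' (sm (sm (OnePoint.some β₁.b) (sm (OnePoint.some x) (OnePoint.some c₁)))
      (OnePoint.some (pr (pr e γ₂.b) a₂))) =
      sm (OnePoint.some (pr e (pr γ₂.b (pr x a₂)))) (OnePoint.some (pr β₁.b c₁)) from rfl,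
      PM.at_prod, h₂, PM.at_id]
    generalize vat v₂ (OnePoint.some a₂) = c₂
    induction c₂ using OnePoint.rec with
    | infty => simp; rfl
    | coe c₂ => rfl

/-- change of the compact space `E` -/
theorem Fact.mapE [CompactSpace E'.carrier] (f : E'.carrier → E.carrier) (hf : Continuous f)
    (he : ∀ (g : G) x, f (g • x) = g • f x) (h : Fact V E γ β X) : Fact V E' γ β X := by
  obtain ⟨A, C, v, hv, ψ, hψ⟩ := h
  let φ : PM E' E := PM.ofProper f hf (by rw [cocompact_eq_bot]; exact tendsto_bot) he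
  refine ⟨A, C, v, hv, (φ.prod (PM.id _)).comp ψ, ?_⟩
  intro e x a
  exact hψ (f e) x a

/-- change of the spaces `γ`, `β` -/
theorem Fact.map (φ : PM γ'.B γ.B) (hφ : φ.at' (OnePoint.some γ'.b) = OnePoint.some γ.b)
    (χ : PM β.B β'.B) (hχ : χ.at' (OnePoint.some β.b) = OnePoint.some β'.b)
    (h : Fact V E γ β X) : Fact V E γ' β' X := by
  obtain ⟨A, C, v, hv, ψ, hψ⟩ := h
  refine ⟨A, C, v, hv, ((PM.id _).prod (φ.prod (PM.id _))).comp (ψ.comp (χ.prod (PM.id _))), ?_⟩
  intro e x a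
  change (χ.prod (PM.id _)).at' (ψ.at' (sm (OnePoint.some e) (sm (φ.at' (OnePoint.some γ'.b))
    (OnePoint.some (pr x a))))) = _
  rw [hφ, sm_coe, sm_coe, hψ, PM.at_prod, hχ, PM.at_id]

theorem Fact.map_left (φ : PM γ'.B γ.B) (hφ : φ.at' (OnePoint.some γ'.b) = OnePoint.some γ.b)
    (h : Fact V E γ β X) : Fact V E γ' β X := h.map φ hφ (PM.id _) rfl

theorem Fact.map_right (χ : PM β.B β'.B) (hχ : χ.at' (OnePoint.some β.b) = OnePoint.some β'.b)
    (h : Fact V E γ β X) : Fact V E γ β' X := h.map (PM.id _) rfl χ hχ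

/-- the identity -/
theorem Fact.refl [CompactSpace E.carrier] (V : TClass) (β : PB G) (X : GSpace G) :
    Fact V E β β X := by
  let q : PM E (tr G (𝟙_ LC)) := PM.ofProper (fun _ => tp (A := 𝟙_ LC) ()) continuous_const
    (by rw [cocompact_eq_bot]; exact tendsto_bot) (fun _ _ => rfl)
  let s : PM ((tr G (𝟙_ LC)).prod (β.B.prod (X.prod (tr G (𝟙_ LC)))))
      (β.B.prod (X.prod (tr G (𝟙_ LC)))) :=
    PM.emb p2 (fun w => pr (tp (A := 𝟙_ LC) ()) w) (by fun_prop)
      (continuous_pr continuous_const continuous_id) (fun _ => rfl) (fun _ _ => rfl)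
  exact ⟨𝟙_ LC, 𝟙_ LC, 𝟙 _, V.one, (q.prod (PM.id _)).comp s, fun e x a => rfl⟩

end Calculus

end Vale.Agent.P241.H808
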