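import Vale.Agent.P241.H808.Null2
import Vale.Agent.P241.H40.ClaimT

/-!
# P241, route E: the open cone over the fixed points

* `IsSharp X Y` : `Y` is (a copy of) the closed subspace `X × 0 ∪ X^G × [0, ∞)` of `X × [0, ∞)`.
* `N_of_sharp` : nullity on `X^G` and on `Y` gives nullity on `X`.
* `hstep_of_sharp` : the list form, as it is used in `H40.claimT`.
-/

open CategoryTheory MonoidalCategory Filter Topology OnePoint

open Vale.Agent.P251.St (Space Map)
open Vale.Agent.P251.G Vale.Agent.P251.G.LC
open Vale.Agent.P241.St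

namespace Vale.Agent.P241.H808

variable {G : Type} [Group G]

/-- `Y` is the closed subspace `X × 0 ∪ X^G × [0, ∞)` of `X × [0, ∞)`. -/
structure IsSharp (X Y : GSpace G) where
  /-- the inclusion -/
  k : Y.carrier → X.carrier × NNReal
  emb : IsClosedEmbedding k
  eqv : ∀ (g : G) (y : Y.carrier), k (g • y) = (g • (k y).1, (k y).2)
  range : ∀ (x : X.carrier) (r : NNReal), (r = 0 ∨ ∀ g : G, g • x = x) → (x, r) ∈ Set.range k
  cases : ∀ y : Y.carrier, (k y).2 = 0 ∨ ∀ g : G, g • (k y).1 = (k y).1

namespace IsSharp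

variable {X Y : GSpace G} (S : IsSharp X Y)

/-- a point of `Y` -/
noncomputable def pt' (x : X.carrier) (r : NNReal) (h : r = 0 ∨ ∀ g : G, g • x = x) : Y.carrier :=
  (S.range x r h).choose

theorem k_pt' (x : X.carrier) (r : NNReal) (h : r = 0 ∨ ∀ g : G, g • x = x) :
    S.k (S.pt' x r h) = (x, r) := (S.range x r h).choose_spec

theorem fix_top (z : (GSpace.triv G (X.fix ⊤)).carrier) (g : G) :
    g • (show ↥(MulAction.fixedPoints (⊤ : Subgroup G) X.carrier) from z).1 =
      (show ↥(MulAction.fixedPoints (⊤ : Subgroup G) X.carrier) from z).1 :=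
  (show ↥(MulAction.fixedPoints (⊤ : Subgroup G) X.carrier) from z).2 ⟨g, Subgroup.mem_top g⟩

/-- the point of `X` -/
def val (z : (GSpace.triv G (X.fix ⊤)).carrier) : X.carrier :=
  (show ↥(MulAction.fixedPoints (⊤ : Subgroup G) X.carrier) from z).1

theorem isClosedEmbedding_val : IsClosedEmbedding (val : (GSpace.triv G (X.fix ⊤)).carrier → X.carrier) :=
  (X.isClosed_fixedPoints (⊤ : Subgroup G)).isClosedEmbedding_subtypeVal

/-- the inclusion of the base -/
noncomputable def bas (x : X.carrier) : Y.carrier := S.pt' x 0 (Or.inl rfl)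

theorem k_bas (x : X.carrier) : S.k (S.bas x) = (x, 0) := S.k_pt' x 0 _

/-- the cone coordinates -/
noncomputable def con (p : ((hh G).B.prod (GSpace.triv G (X.fix ⊤))).carrier) : Y.carrier :=
  S.pt' (val (p2 p)) (rq (p1 p)) (Or.inr (fix_top (p2 p)))

theorem k_con (p : ((hh G).B.prod (GSpace.triv G (X.fix ⊤))).carrier) :
    S.k (S.con p) = (val (p2 p), rq (p1 p)) := S.k_pt' _ _ _

theorem isClosedEmbedding_bas : IsClosedEmbedding S.bas := by
  rw [← S.emb.of_comp_iff]
  have h : S.k ∘ S.bas = fun x => (x, (0 : NNReal)) := funext S.k_bas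
  rw [h]
  exact Function.LeftInverse.isClosedEmbedding (f := Prod.fst) (fun _ => rfl) continuous_fst
    (by fun_prop)

theorem isClosedEmbedding_con : IsClosedEmbedding S.con := by
  rw [← S.emb.of_comp_iff]
  have h : S.k ∘ S.con = Prod.map val (_root_.id : NNReal → NNReal) ∘
      (Homeomorph.prodComm NNReal (GSpace.triv G (X.fix ⊤)).carrier) := funext S.k_con
  rw [h]
  exact (isClosedEmbedding_val.prodMap IsClosedEmbedding.id).comp
    (Homeomorph.prodComm NNReal (GSpace.triv G (X.fix ⊤)).carrier).isClosedEmbedding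

/-- the sharp space is the open cone over the inclusion of the fixed points -/
noncomputable def cone : OpenCone X (GSpace.triv G (X.fix ⊤)) Y where
  ι := PM.ofProper val isClosedEmbedding_val.continuous isClosedEmbedding_val.tendsto_cocompact
    fun g z => (fix_top z g).symm
  fι := val
  at_ι _ := rfl
  i := PM.ofProper S.bas S.isClosedEmbedding_bas.continuous
    S.isClosedEmbedding_bas.tendsto_cocompact fun g x => by
      apply S.emb.injective
      rw [S.eqv, S.k_bas, S.k_bas]
  fi := S.bas
  at_i _ := rfl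
  j := PM.ofProper S.con S.isClosedEmbedding_con.continuous
    S.isClosedEmbedding_con.tendsto_cocompact fun g p => by
      apply S.emb.injective
      rw [S.eqv, S.k_con, S.k_con]
      exact Prod.ext (fix_top (p2 p) g).symm rfl
  fj r z := S.con (pr (rp r) z)
  at_j _ _ := rfl
  inj_i {x x'} h := by
    have h1 := congrArg S.k h
    rw [S.k_bas, S.k_bas] at h1
    exact congrArg Prod.fst h1
  inj_j {r r' z z'} h := by
    have h1 := congrArg S.k h
    rw [S.k_con, S.k_con] at h1
    exact Or.inr ⟨congrArg Prod.snd h1, isClosedEmbedding_val.injective (congrArg Prod.fst h1)⟩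
  glue z := by
    apply S.emb.injective
    rw [S.k_bas, S.k_con]
    rfl
  meet {x r z} h := by
    have h1 := congrArg S.k h
    rw [S.k_bas, S.k_con] at h1
    exact (congrArg Prod.snd h1).symm
  surj y := by
    rcases S.cases y with h | h
    · refine Or.inl ⟨(S.k y).1, S.emb.injective ?_⟩
      rw [S.k_bas]
      exact Prod.ext rfl h.symm
    · refine Or.inr ⟨(S.k y).2, ⟨(S.k y).1, fun g => h g.1⟩, S.emb.injective ?_⟩
      rw [S.k_con]
      rfl

end IsSharp

/-- **Gluing along the fixed points.** -/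
theorem N_of_sharp {V : TClass} {E : GSpace G} [CompactSpace E.carrier] {β γ : PB G}
    {X Y : GSpace G} (S : IsSharp X Y) (h1 : N V E β (GSpace.triv G (X.fix ⊤)))
    (h2 : N V (pt G).B γ Y) : N V E (γ.prod β) X := S.cone.null h1 h2

/-! ### The list form -/

open Vale.Agent.P241.H40

/-- products of lists -/
theorem Le_plist_append (l l' : List (PB G)) : Le ((plist l).prod (plist l')) (plist (l ++ l')) := by
  induction l with
  | nil =>
    refine Le.ofClosed (a := (pt G).prod (plist l')) (b := plist l')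
      (fun z => p2 z) ?_ (fun g z => p2_smul g z) rfl
    exact (Homeomorph.punitProd (plist l').B.carrier).isClosedEmbedding
  | cons b l ih =>
    refine Le.trans ?_ ((Le.refl b).prod ih)
    refine Le.ofClosed (a := (b.prod (plist l)).prod (plist l'))
      (b := b.prod ((plist l).prod (plist l')))
      (fun z => pr (p1 (p1 z)) (pr (p2 (p1 z)) (p2 z))) ?_ (fun g z => rfl) rfl
    exact (Homeomorph.prodAssoc b.B.carrier (plist l).B.carrier (plist l').B.carrier).isClosedEmbedding

/-- **The step of the induction over the group** from nullity on the fixed points and on the sharp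
space. -/
theorem hstep_of_sharp {W : Type} [Group W] [Finite W] {V : TClass} {X Y : GSpace W}
    (S : IsSharp X Y)
    (h1 : ∃ l : List (Subgroup W), (∀ B ∈ l, B ≠ ⊤) ∧
      ∀ m, N V (EE W (m + 1)) (plist (l.map starQ)) (GSpace.triv W (X.fix ⊤)))
    (h2 : ∃ l : List (Subgroup W), (∀ B ∈ l, B ≠ ⊤) ∧ N V (pt W).B (plist (l.map starQ)) Y) :
    ∃ l : List (Subgroup W), (∀ B ∈ l, B ≠ ⊤) ∧
      ∀ m, N V (EE W (m + 1)) (plist (l.map starQ)) X := by
  obtain ⟨l, hl, h1⟩ := h1
  obtain ⟨l', hl', h2⟩ := h2
  refine ⟨l' ++ l, fun B hB => ?_, fun m => ?_⟩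
  · rcases List.mem_append.1 hB with h | h
    exacts [hl' B h, hl B h]
  · have h3 := Le_plist_append (l'.map starQ) (l.map starQ)
    rw [← List.map_append] at h3
    exact Fact.mapLe (Le.refl _) h3 (N_of_sharp S (h1 m) h2)

end Vale.Agent.P241.H808
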