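import Vale.Agent.P241.H808.SharpCone
import Vale.Agent.P241.H175.Sharp

/-!
# P241, route E: the sharp space is an open cone
-/

open Topology
open Vale.Agent.P241.St

namespace Vale.Agent.P241.H808

variable {G : Type} [Group G]

/-- `H175.sharp X` is the closed subspace `X × 0 ∪ X^G × [0, ∞)` of `X × [0, ∞)`. -/
def isSharp_sharp (X : GSpace G) : IsSharp X (H175.sharp X) where
  k := Subtype.val
  emb := (H175.isClosed_sharpSet X).isClosedEmbedding_subtypeVal
  eqv _ _ := rfl
  range x r h := ⟨⟨(x, r), h⟩, rfl⟩
  cases y := y.2

/-- the open cone of the inclusion of the fixed points -/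
noncomputable def sharpOpenCone (X : GSpace G) :
    OpenCone X (GSpace.triv G (X.fix ⊤)) (H175.sharp X) := (isSharp_sharp X).cone

end Vale.Agent.P241.H808
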